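import Vale.Agent.P247H.Par
import Vale.Agent.P247M.PInt
import Vale.Agent.P247N.Lt

/-!
# P247, row ICURX: the limit of the Jacobians is an integral current
-/

set_option linter.all false

open scoped Manifold ContDiff Topology ComplexConjugate
open Set MeasureTheory Filter Metric

noncomputable section

namespace Vale.Agent.P247H

open Vale.Agent.P247X Vale.Agent.P247.SCY Vale.Agent.P247.SCY.HS Vale.Agent.P247A
open Vale.Agent.P247M Vale.Agent.P247H.Gn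
open Vale.Agent.P247.H667 (n4 TF pf pf_isPush pf_tsupport pf_pos isPush_unique PD1_sub CPD_sub)
open Vale.Agent.P247.H574 (PD Box IsPush)
open Vale.Agent.P247.H74 (R4 e)
open Vale.Agent.P247.H899 (isOpen_PD inv inv_mem Θ_inv inv_Θ contDiffOn_inv isOpen_image
  contDiffAt_Θ)
open Vale.Agent.P247N (Lt.dk Lt.ds)

namespace Mn

variable {X : Type} [Cl4 X] {w : Tri X} (t : LocT w) (b : Box t.D)
  (hb : b.Θ '' PD 2 ⊆ t.κ.target)

/-- the parametrisation of a box -/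
def PP (p : ℂ × ℂ) : X := t.κ.symm (b.Θ p)

include hb

theorem sm_PP : ContMDiffOn 𝓘(ℝ, ℂ × ℂ) (𝓡 4) ∞ (PP t b) (PD 2) :=
  t.smooth_symm.comp (contMDiffOn_iff_contDiffOn.2 b.smooth) fun _ hp => hb ⟨_, hp, rfl⟩

theorem inj_PP : InjOn (PP t b) (PD 2) := fun _ hp _ hq h =>
  P247.H899.injOn b hp hq (t.κ.symm.injOn (hb ⟨_, hp, rfl⟩) (hb ⟨_, hq, rfl⟩) h)

theorem dP_PP {p : ℂ × ℂ} (hp : p ∈ PD 2) (u : ℂ × ℂ) :
    dP (PP t b) p u = Lt.ds t (b.Θ p) (fderiv ℝ b.Θ p u) := by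
  have h := DFunLike.congr_fun (mfderiv_comp (g := t.κ.symm) (f := b.Θ) p
    ((P247N.Lt.cm_s t (hb ⟨_, hp, rfl⟩)).mdifferentiableAt (by simp))
    (mdifferentiableAt_iff_differentiableAt.2 ((contDiffAt_Θ b hp).differentiableAt (by simp)))) u
  rw [mfderiv_eq_fderiv] at h
  exact h

theorem dk_PP {p : ℂ × ℂ} (hp : p ∈ PD 2) (u : ℂ × ℂ) :
    Lt.dk t (PP t b p) (dP (PP t b) p u) = fderiv ℝ b.Θ p u := by
  rw [dP_PP t b hb hp]
  exact P247N.Lt.dk_ds' t (hb ⟨_, hp, rfl⟩) _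

theorem sm_to : ContMDiffOn (𝓡 4) 𝓘(ℝ, R4) ∞ (fun x => n4.symm (inv b (t.κ x)))
    (t.κ.source ∩ t.κ ⁻¹' (b.Θ '' PD 2)) :=
  (contMDiffOn_iff_contDiffOn.2 (n4.symm.contDiff.comp_contDiffOn (contDiffOn_inv b))).comp
    (t.smooth.mono inter_subset_left) fun _ h => h.2

theorem sm_inv : ContMDiffOn 𝓘(ℝ, R4) (𝓡 4) ∞ (fun y => PP t b (n4 y)) (n4 ⁻¹' PD 2) :=
  (sm_PP t b hb).comp (contMDiffOn_iff_contDiffOn.2 n4.contDiff.contDiffOn) fun _ h => h

/-- the chart of a box -/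
def ch : OpenPartialHomeomorph X R4 where
  toFun x := n4.symm (inv b (t.κ x))
  invFun y := PP t b (n4 y)
  source := t.κ.source ∩ t.κ ⁻¹' (b.Θ '' PD 2)
  target := n4 ⁻¹' PD 2
  map_source' x hx := by
    rw [mem_preimage, n4.apply_symm_apply]
    exact inv_mem b hx.2
  map_target' y hy := ⟨t.κ.map_target (hb ⟨_, hy, rfl⟩), by
    rw [mem_preimage, PP, t.κ.right_inv (hb ⟨_, hy, rfl⟩)]
    exact ⟨_, hy, rfl⟩⟩
  left_inv' x hx := by rw [n4.apply_symm_apply, PP, Θ_inv b hx.2, t.κ.left_inv hx.1]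
  right_inv' y hy := by
    rw [PP, t.κ.right_inv (hb ⟨_, hy, rfl⟩), inv_Θ b hy, n4.symm_apply_apply]
  open_source := t.κ.isOpen_inter_preimage (isOpen_image b (isOpen_PD 2) le_rfl)
  open_target := (isOpen_PD 2).preimage n4.continuous
  continuousOn_toFun := (sm_to t b hb).continuousOn
  continuousOn_invFun := (sm_inv t b hb).continuousOn

theorem pair_box {μ : Form X 4} (hμ : Volume μ) : ∃ s : ℝ, (s = 1 ∨ s = -1) ∧
    ∀ (α : Form X 2) (f : ℂ × ℂ → ℝ) (ψ : Form X 2), Cont α → TF (PD 1) f → Cont ψ →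
      IsPb t (pf b f) ψ → pair μ α ψ =
        s * ∫ p in PD 1, f p * pb (PP t b) α p ![(0, 1), (0, Complex.I)] := by
  have h12 : PD 1 ⊆ PD 2 := PD1_sub.trans CPD_sub
  obtain ⟨s, hs, hs'⟩ := exists_sign (T := TC) (isOpen_PD 2) (sm_PP t b hb) hμ
    ((convex_ball (0 : ℂ) 1).prod (convex_ball (0 : ℂ) 1)).isPreconnected h12 fun p hp u v h =>
      (b.imm p (h12 hp)).1 (((dk_PP t b hb (h12 hp) u).symm.trans
        (congrArg (Lt.dk t (PP t b p)) h)).trans (dk_PP t b hb (h12 hp) v))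
  refine ⟨s, hs, fun α f ψ hα hf hψ h => ?_⟩
  rw [pair_param preserving_TC (isOpen_PD 2) (sm_PP t b hb) hμ (isOpen_PD 1).measurableSet h12
    ((inj_PP t b hb).mono h12) hs' hα hψ (Eventually.of_forall fun x hx => Or.inr ?_)]
  · congr 1
    refine setIntegral_congr_fun (isOpen_PD 1).measurableSet fun p hp => ?_
    have h1 : ∀ u v : ℂ × ℂ, pb (PP t b) ψ p ![u, v] =
        f p * (u.1.re * v.1.im - u.1.im * v.1.re) := fun u v => by
      have h2 := hb ⟨_, h12 hp, rfl⟩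
      rw [pb_two, ← (pf_isPush b hf).on p (h12 hp), ← dk_PP t b hb (h12 hp),
        ← dk_PP t b hb (h12 hp)]
      exact (h.2 _ (t.κ.map_target h2) _ _).trans
        (congrArg (fun y => pf b f y _ _) (t.κ.right_inv h2))
    simp only [wedge, fr_TC, h1]
    simp
    exact mul_comm _ _
  · by_cases hx' : x ∈ t.κ.source
    · refine alt2_ext fun u v => (h.2 x hx' u v).trans ?_
      rw [P247.H667.pf_off b hf]
      · rfl
      · rintro ⟨p, hp, hp'⟩
        exact hx ⟨p, hp, by rw [PP, hp', t.κ.left_inv hx']⟩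
    · exact h.1 x hx'

end Mn

open Mn in
theorem ICURX : ICURX_statement := by
  intro X _ μ hμ w hw L H
  obtain ⟨l, T, hl, hT, hc, hlim⟩ := Jc.exists_T H hμ hw
  refine ⟨T, ⟨hT, fun t b hb => ?_⟩, hc⟩
  obtain ⟨G, hG⟩ := Pr.exists_HD H (sm_PP t b hb) fun i =>
    H.energy i (ch t b hb) (sm_to t b hb) (sm_inv t b hb)
  obtain ⟨s, hs, hp⟩ := pair_box t b hb hμ
  have h1 : ∀ f, ∃ ψ, TF (PD 1) f → Cont ψ ∧ IsPb t (pf b f) ψ := fun f => by
    by_cases hf : TF (PD 1) f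
    · obtain ⟨ψ, h1, h2, -⟩ := P247N.Lt.exists_pb t (pf_isPush b hf).cf
        ((pf_tsupport b hf).trans ((image_mono (P247.H667.TF.sub2 hf)).trans hb))
      exact ⟨ψ, fun _ => ⟨h1, h2⟩⟩
    · exact ⟨fun _ => 0, fun h => (hf h).elim⟩
  choose ψ hψ using h1
  obtain ⟨ν, h1, h2⟩ := G.slices hs (fun f => T (ψ f)) hl (fun f hf => by
    refine (hlim _ (hψ f hf).1).congr fun n => ?_
    rw [hp _ f _ (Jc.sc_jac H n).cont hf (hψ f hf).1 (hψ f hf).2, ← mul_assoc, ← integral_const_mul]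
    refine setIntegral_congr_fun (isOpen_PD 1).measurableSet fun p hp => ?_
    simp only [HD.Fn, hG n p hp]
    ring) fun f hf h0 => hT.pos _ (hψ f hf).1 fun x v => by
      by_cases hx : x ∈ t.κ.source
      · rw [(hψ f hf).2.2 x hx]
        exact (pf_pos b h0 (t.κ x) (Lt.dk t x v)).trans_eq
          (congrArg (pf b f (t.κ x) (Lt.dk t x v)) (P247N.Lt.dk_J t hx v).symm)
      · rw [(hψ f hf).2.1 x hx]
        exact le_rfl
  refine ⟨ν, h1, fun f hf hs hs' => ⟨(h2 f ⟨hf, hs, hs'⟩).1, fun φ ψ' h3 h4 => ?_⟩⟩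
  rw [isPush_unique b h3 (pf_isPush b ⟨hf, hs, hs'⟩)] at h4
  rw [P247N.Lt.isPb_unique t h4 (hψ f ⟨hf, hs, hs'⟩).2]
  exact (h2 f ⟨hf, hs, hs'⟩).2

end Vale.Agent.P247H
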