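import Vale.Agent.P247M.LBOps

/-!
# P247, row ICURX: a line bundle is trivial over a compact star-shaped parameter domain
-/

set_option linter.all false

open scoped Manifold ContDiff Topology ComplexConjugate
open Set Filter Metric

noncomputable section

namespace Vale.Agent.P247H.Gg

open Vale.Agent.P247X Vale.Agent.P247.SCY Vale.Agent.P247.SCY.HS
open Vale.Agent.P247M

variable {X : Type} [Cl4 X] (L : LB X) (ρ : Fin L.n → X → ℝ)

/-- the dual vector -/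
def q (i l : Fin L.n) (x : X) : ℂ := L.g i l x * ρ l x

/-- the matrix of the projection onto the fibre -/
def pj (l m : Fin L.n) (x : X) : ℂ := ρ l x * q L ρ l m x

/-- iterated projections along a ray -/
def sq {V : Type} [NormedAddCommGroup V] [NormedSpace ℝ V] (P : V → X) (S : Fin L.n → ℂ) (k : ℕ) :
    ℕ → V → Fin L.n → ℂ
  | 0 => fun _ => S
  | m + 1 => fun p l => ∑ j, pj L ρ l j (P (((m : ℝ) / k) • p)) * sq P S k m p j

variable {L ρ} (hs : ∀ l, ContMDiff (𝓡 4) 𝓘(ℝ, ℝ) ∞ (ρ l)) (ht : ∀ l, tsupport (ρ l) ⊆ L.U l)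

theorem g_ne {i j : Fin L.n} {x : X} (hx : x ∈ L.U i ∩ L.U j) : L.g i j x ≠ 0 :=
  norm_ne_zero_iff.1 (by rw [L.g_norm i j x hx]; exact one_ne_zero)

theorem g_inv {i j : Fin L.n} {x : X} (hx : x ∈ L.U i ∩ L.U j) : L.g i j x * L.g j i x = 1 := by
  rw [L.g_co i j i x ⟨hx, hx.1⟩]
  have h := L.g_co i i i x ⟨⟨hx.1, hx.1⟩, hx.1⟩
  exact mul_left_cancel₀ (g_ne ⟨hx.1, hx.1⟩) (h.trans (mul_one _).symm)

include ht

theorem mem_U {l : Fin L.n} {x : X} (h : ρ l x ≠ 0) : x ∈ L.U l := ht l (subset_tsupport _ h)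

theorem q_tr {i j : Fin L.n} {x : X} (hx : x ∈ L.U i ∩ L.U j) (l : Fin L.n) :
    q L ρ i l x = L.g i j x * q L ρ j l x := by
  by_cases h : ρ l x = 0
  · simp [q, h]
  · rw [q, q, ← mul_assoc, L.g_co i j l x ⟨hx, mem_U ht h⟩]

theorem pj_eq {i : Fin L.n} {x : X} (hx : x ∈ L.U i) (l m : Fin L.n) :
    pj L ρ l m x = ρ l x * L.g l i x * q L ρ i m x := by
  by_cases h : ρ l x = 0
  · simp [pj, h]
  · rw [pj, q_tr ht ⟨mem_U ht h, hx⟩, mul_assoc]

theorem G_eq {i j : Fin L.n} {x y : X} (hx : x ∈ L.U i) (hy : y ∈ L.U j) :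
    ∑ l, ∑ m, pj L ρ l m x * pj L ρ m l y = (∑ l, q L ρ j l y * (ρ l x * L.g l i x)) *
      ∑ m, q L ρ i m x * (ρ m y * L.g m j y) := by
  rw [Finset.sum_mul_sum]
  refine Finset.sum_congr rfl fun l _ => Finset.sum_congr rfl fun m _ => ?_
  rw [pj_eq ht hx, pj_eq ht hy]
  ring

theorem G_ne (h1 : ∀ x, ∃ l, ρ l x ≠ 0) (x : X) : ∑ l, ∑ m, pj L ρ l m x * pj L ρ m l x ≠ 0 := by
  obtain ⟨i, hi⟩ := h1 x
  have hx := mem_U ht hi
  have h2 : ∑ l, q L ρ i l x * (ρ l x * L.g l i x) = ((∑ l, ρ l x ^ 2 : ℝ) : ℂ) := by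
    push_cast
    refine Finset.sum_congr rfl fun l _ => ?_
    by_cases h : ρ l x = 0
    · simp [h]
    · rw [q]
      linear_combination (ρ l x : ℂ) ^ 2 * g_inv ⟨hx, mem_U ht h⟩
  have h3 : 0 < ∑ l, ρ l x ^ 2 :=
    Finset.sum_pos' (fun _ _ => sq_nonneg _) ⟨i, Finset.mem_univ _, by positivity⟩
  rw [G_eq ht hx hx, h2]
  exact mul_ne_zero (by exact_mod_cast h3.ne') (by exact_mod_cast h3.ne')

include hs

theorem sm_cut (l : Fin L.n) {f : X → ℂ} {x : X} (h : x ∈ L.U l → SmC f x) :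
    SmC (fun y => (ρ l y : ℂ) * f y) x := by
  by_cases hx : x ∈ tsupport (ρ l)
  · exact (SmC.ofReal (hs l x)).mul (h (ht l hx))
  · refine (contMDiffAt_const (c := (0 : ℂ))).congr_of_eventuallyEq ?_
    filter_upwards [notMem_tsupport_iff_eventuallyEq.1 hx] with y hy
    simp [hy]

theorem sm_q {i : Fin L.n} {x : X} (hx : x ∈ L.U i) (l : Fin L.n) : SmC (q L ρ i l) x := by
  exact (sm_cut hs ht l (f := L.g i l) fun h => L.smC ⟨hx, h⟩).congr_of_eventuallyEq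
    (Eventually.of_forall fun y => mul_comm _ _)

theorem sm_pj (l m : Fin L.n) (x : X) : SmC (pj L ρ l m) x :=
  sm_cut hs ht l fun h => sm_q hs ht h m

omit hs ht in
theorem gauge (L : LB X) {V : Type} [NormedAddCommGroup V] [NormedSpace ℝ V] {P : V → X}
    {U K : Set V} (hU : IsOpen U) (hP : ContMDiffOn 𝓘(ℝ, V) (𝓡 4) ∞ P U) (hK : IsCompact K)
    (hKU : K ⊆ U) (hKs : ∀ p ∈ K, ∀ t ∈ Icc (0 : ℝ) 1, t • p ∈ K) :
    ∃ h : Fin L.n → V → ℂ, (∀ i, ∀ p ∈ K, P p ∈ L.U i → ContDiffAt ℝ ∞ (h i) p ∧ ‖h i p‖ = 1) ∧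
      ∀ i j, ∀ p, P p ∈ L.U i ∩ L.U j → h i p = L.g i j (P p) * h j p := by
  classical
  obtain ⟨r, hs, ht, h1⟩ : ∃ r : Fin L.n → X → ℝ, (∀ l, ContMDiff (𝓡 4) 𝓘(ℝ, ℝ) ∞ (r l)) ∧
      (∀ l, tsupport (r l) ⊆ L.U l) ∧ ∀ x, ∃ l, r l x ≠ 0 := by
    obtain ⟨ρ, ht⟩ := SmoothPartitionOfUnity.exists_isSubordinate (𝓡 4) (isClosed_univ (X := X))
      L.U L.opn fun y _ => mem_iUnion.2 (L.cov y)
    exact ⟨fun l => ρ l, fun l => (ρ l).contMDiff, ht,
      fun x => (ρ.exists_pos_of_mem (mem_univ x)).imp fun _ h => h.ne'⟩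
  have hc : ∀ l m, ContinuousOn (fun p => pj L r l m (P p)) U := fun l m =>
    (continuous_iff_continuousAt.2 fun x => (sm_pj hs ht l m x).continuousAt).comp_continuousOn
      hP.continuousOn
  have hO : IsOpen (U ×ˢ U ∩ (fun z : V × V =>
      ∑ l, ∑ m, pj L r l m (P z.1) * pj L r m l (P z.2)) ⁻¹' {0}ᶜ) :=
    ContinuousOn.isOpen_inter_preimage (continuousOn_finsetSum _ fun l _ =>
      continuousOn_finsetSum _ fun m _ => ((hc l m).comp continuousOn_fst fun _ h => h.1).mul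
        ((hc m l).comp continuousOn_snd fun _ h => h.2)) (hU.prod hU) isOpen_compl_singleton
  obtain ⟨δ, hδ, hth⟩ := (hK.image (continuous_id.prodMk continuous_id)).exists_thickening_subset_open
    hO (by
      rintro _ ⟨p, hp, rfl⟩
      exact ⟨⟨hKU hp, hKU hp⟩, G_ne ht h1 _⟩)
  obtain ⟨R, hR⟩ := hK.isBounded.exists_norm_le
  obtain ⟨k, hk⟩ := exists_nat_gt (|R| / δ)
  have hk0 : (0 : ℝ) < k := lt_of_le_of_lt (by positivity) hk
  have hI : ∀ m : ℕ, m ≤ k → (m : ℝ) / k ∈ Icc (0 : ℝ) 1 := fun m hm =>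
    ⟨by positivity, (div_le_one hk0).2 (by exact_mod_cast hm)⟩
  obtain ⟨l0, hl0⟩ := h1 (P 0)
  set S := sq L r P (Pi.single l0 1) k
  have hsm : ∀ m ≤ k, ∀ p ∈ K, ∀ l, ContDiffAt ℝ ∞ (fun p => S m p l) p := by
    intro m
    induction m with
    | zero => exact fun _ _ _ _ => contDiffAt_const
    | succ m ih =>
      intro hm p hp l
      refine ContDiffAt.sum fun j _ => ContDiffAt.mul ?_ (ih (by omega) p hp j)
      exact (contMDiffAt_iff_contDiffAt.1 ((sm_pj hs ht l j _).comp _ (hP.contMDiffAt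
        (hU.mem_nhds (hKU (hKs p hp _ (hI m (by omega)))))))).comp p (contDiffAt_id.const_smul _)
  have hne : ∀ m ≤ k, ∀ p ∈ K, ∀ j, P (((m : ℝ) / k) • p) ∈ L.U j →
      ∑ l, q L r j l (P (((m : ℝ) / k) • p)) * S m p l ≠ 0 := by
    intro m
    induction m with
    | zero =>
      intro _ p _ j hj
      simp only [Nat.cast_zero, zero_div, zero_smul] at hj ⊢
      have h2 : ∑ l, q L r j l (P 0) * S 0 p l = q L r j l0 (P 0) := by
        simp [S, sq, Pi.single_apply]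
      rw [h2]
      exact mul_ne_zero (g_ne ⟨hj, mem_U ht hl0⟩) (by exact_mod_cast hl0)
    | succ m ih =>
      intro hm p hp i hi
      obtain ⟨j, hj⟩ := L.cov (P (((m : ℝ) / k) • p))
      have h2 : ((((m + 1 : ℕ) : ℝ) / k) • p, ((m : ℝ) / k) • p) ∈ _ := hth
        (mem_thickening_iff.2 ⟨_, mem_image_of_mem _ (hKs p hp _ (hI m (by omega))), by
          rw [Prod.dist_eq, id, dist_self, max_eq_left dist_nonneg, dist_eq_norm, ← sub_smul,
            ← sub_div, Nat.cast_succ, add_sub_cancel_left, norm_smul, Real.norm_eq_abs,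
            abs_of_pos (by positivity), one_div, inv_mul_lt_iff₀ hk0]
          rw [div_lt_iff₀ hδ] at hk
          linarith [hR p hp, le_abs_self R]⟩)
      have h3 := h2.2
      rw [mem_preimage, G_eq ht hi hj] at h3
      refine ne_of_eq_of_ne ?_ (mul_ne_zero (right_ne_zero_of_mul h3) (ih (by omega) p hp j hj))
      rw [Finset.sum_mul]
      refine Finset.sum_congr rfl fun l _ => ?_
      simp only [S, sq, pj_eq ht hj, mul_assoc, ← Finset.mul_sum]
  refine ⟨fun i p => (∑ l, q L r i l (P p) * S k p l) / (‖∑ l, q L r i l (P p) * S k p l‖ : ℝ),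
    fun i p hp hi => ?_, fun i j p hp => ?_⟩
  · have h2 := hne k le_rfl p hp i (by rwa [div_self hk0.ne', one_smul])
    rw [div_self hk0.ne', one_smul] at h2
    have h3 : ContDiffAt ℝ ∞ (fun p => ∑ l, q L r i l (P p) * S k p l) p :=
      ContDiffAt.sum fun l _ => (contMDiffAt_iff_contDiffAt.1 ((sm_q hs ht hi l).comp _
        (hP.contMDiffAt (hU.mem_nhds (hKU hp))))).mul (hsm k le_rfl p hp l)
    refine ⟨?_, by rw [norm_div, Complex.norm_real, norm_norm, div_self (norm_ne_zero_iff.2 h2)]⟩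
    have h4 := h3.mul (Complex.ofRealCLM.contDiff.contDiffAt.comp p
      ((h3.norm ℝ h2).inv (norm_ne_zero_iff.2 h2)))
    simpa only [div_eq_mul_inv, Function.comp_def, Complex.ofRealCLM_apply, Pi.inv_apply,
      Complex.ofReal_inv]
      using h4
  · simp only [q_tr ht hp, mul_assoc, ← Finset.mul_sum, norm_mul, L.g_norm i j _ hp, one_mul,
      mul_div_assoc]

end Vale.Agent.P247H.Gg
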