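import Vale.Agent.P247.H667.IcurThm

/-!
# P247, row ICURX: the slices of the limit of the Jacobians of Higgs fields on a polydisc
-/

set_option linter.all false

open Set MeasureTheory Filter Topology Metric
open scoped ContDiff ENNReal

noncomputable section

namespace Vale.Agent.P247H.Gn

open Vale.Agent.P247 Vale.Agent.P247.H667
open Vale.Agent.P247.H574 (PD IntM)
open Vale.Agent.P247.H899 (isOpen_PD)

/-- extraction of a sequence from a filter -/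
theorem subseq {E ι : Type} [PseudoMetricSpace E] [TopologicalSpace.SeparableSpace E] (S : Set ι)
    (res : ι → E) (L : ℕ → ι → ℝ) (L0 : ι → ℝ) {C : ℝ} (hC : 0 < C)
    (hL : ∀ n, ∀ f ∈ S, ∀ g ∈ S, |L n f - L n g| ≤ C * dist (res f) (res g))
    {l : Filter ℕ} [NeBot l] (hl : l ≤ atTop) (h : ∀ f ∈ S, Tendsto (L · f) l (𝓝 (L0 f))) :
    ∃ ns : ℕ → ℕ, StrictMono ns ∧ ∀ f ∈ S, Tendsto (fun j => L (ns j) f) atTop (𝓝 (L0 f)) := by
  obtain ⟨t, hts, htc, htd⟩ :=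
    (TopologicalSpace.IsSeparable.of_separableSpace (res '' S)).exists_countable_dense_subset
  have := htc.to_subtype
  choose g hg hgr using fun d : t => hts d.2
  have h1 : Tendsto (fun n (d : t) => L n (g d)) l (𝓝 fun d => L0 (g d)) :=
    tendsto_pi_nhds.2 fun d => h _ (hg d)
  obtain ⟨ns, hns, h2⟩ := (h1.mapClusterPt.mono hl).tendsto_subseq
  refine ⟨ns, hns, fun f hf => Metric.tendsto_nhds.2 fun ε hε => ?_⟩
  obtain ⟨d, hd, hfd⟩ := Metric.mem_closure_iff.1 (htd (mem_image_of_mem res hf)) (ε / (3 * C))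
    (by positivity)
  have h3 : C * dist (res f) (res (g ⟨d, hd⟩)) < ε / 3 := by
    rw [hgr ⟨d, hd⟩]
    calc _ < C * (ε / (3 * C)) := mul_lt_mul_of_pos_left hfd hC
      _ = _ := by field_simp
  have h4 : |L0 f - L0 (g ⟨d, hd⟩)| ≤ C * dist (res f) (res (g ⟨d, hd⟩)) :=
    le_of_tendsto' ((h f hf).sub (h _ (hg _))).abs fun n => hL n f hf _ (hg _)
  filter_upwards [Metric.tendsto_nhds.1 (tendsto_pi_nhds.1 h2 ⟨d, hd⟩) (ε / 3) (by positivity)]
    with j hj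
  have h5 := hL (ns j) f hf _ (hg ⟨d, hd⟩)
  rw [Real.dist_eq] at hj ⊢
  simp only [Function.comp] at hj
  rw [abs_lt] at hj ⊢
  rw [abs_le] at h4 h5
  constructor <;> linarith [hj.1, hj.2, h4.1, h4.2, h5.1, h5.2]

/-- the real basis -/
def bb : Fin 4 → ℂ × ℂ := ![(1, 0), (Complex.I, 0), (0, 1), (0, Complex.I)]

/-- the energy density -/
def eg (r : ℝ) (a : ℂ × ℂ → (ℂ × ℂ) →L[ℝ] ℝ) (al : ℂ × ℂ → ℂ) (p : ℂ × ℂ) : ℝ :=
  ∑ j, ‖nabg a al p (bb j)‖ ^ 2 + r * (1 - ‖al p‖ ^ 2) ^ 2 +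
    (1 / r) * ∑ j, ∑ k, ddg a p (bb j) (bb k) ^ 2

section pt

variable {r : ℝ} (hr : 0 < r) (a : ℂ × ℂ → (ℂ × ℂ) →L[ℝ] ℝ) (al : ℂ × ℂ → ℂ) (p : ℂ × ℂ)
include hr

theorem eg_nonneg : 0 ≤ eg r a al p := by unfold eg; positivity

theorem nab_le (j : Fin 4) :
    ‖nabg a al p (bb j)‖ ^ 2 + r * (1 - ‖al p‖ ^ 2) ^ 2 ≤ 4 * eg r a al p := by
  have h1 : ‖nabg a al p (bb j)‖ ^ 2 ≤ ∑ j, ‖nabg a al p (bb j)‖ ^ 2 :=
    Finset.single_le_sum (f := fun j => ‖nabg a al p (bb j)‖ ^ 2) (fun _ _ => by positivity)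
      (Finset.mem_univ j)
  have h2 : 0 ≤ (1 / r) * ∑ j, ∑ k, ddg a p (bb j) (bb k) ^ 2 := by positivity
  have h3 := eg_nonneg hr a al p
  unfold eg at h3 ⊢
  linarith

theorem jac_le (j k : Fin 4) : |jacg a al p (bb j) (bb k)| ≤ 2 * eg r a al p := by
  have h1 : ∀ j, ‖nabg a al p (bb j)‖ ^ 2 ≤ ∑ j, ‖nabg a al p (bb j)‖ ^ 2 := fun j =>
    Finset.single_le_sum (f := fun j => ‖nabg a al p (bb j)‖ ^ 2) (fun _ _ => by positivity)
      (Finset.mem_univ j)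
  have h2 : ddg a p (bb j) (bb k) ^ 2 ≤ ∑ j, ∑ k, ddg a p (bb j) (bb k) ^ 2 :=
    (Finset.single_le_sum (f := fun k => ddg a p (bb j) (bb k) ^ 2) (fun _ _ => by positivity)
      (Finset.mem_univ k)).trans (Finset.single_le_sum
      (f := fun j => ∑ k, ddg a p (bb j) (bb k) ^ 2) (fun _ _ => by positivity) (Finset.mem_univ j))
  have h3 := mul_le_mul_of_nonneg_left h2 (by positivity : 0 ≤ 1 / r)
  set s := 1 - ‖al p‖ ^ 2
  set F := ddg a p (bb j) (bb k)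
  have h4 : |s * F| ≤ r * s ^ 2 + 1 / r * F ^ 2 := by
    have h5 : r * s ^ 2 + 1 / r * F ^ 2 - 2 * (s * F) = (r * s - F) ^ 2 / r := by field_simp; ring
    have h6 : r * s ^ 2 + 1 / r * F ^ 2 + 2 * (s * F) = (r * s + F) ^ 2 / r := by field_simp; ring
    have h7 : 0 ≤ (r * s - F) ^ 2 / r := by positivity
    have h8 : 0 ≤ (r * s + F) ^ 2 / r := by positivity
    have h9 : 0 ≤ r * s ^ 2 + 1 / r * F ^ 2 := by positivity
    rw [abs_le]
    constructor <;> linarith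
  have h5 : |((starRingEnd ℂ) (nabg a al p (bb j)) * nabg a al p (bb k)).im| ≤
      ‖nabg a al p (bb j)‖ * ‖nabg a al p (bb k)‖ := by
    refine (Complex.abs_im_le_norm _).trans ?_
    rw [norm_mul, RCLike.norm_conj]
  have h6 : 0 ≤ r * s ^ 2 := by positivity
  have h7 : 0 ≤ 1 / r * F ^ 2 := by positivity
  unfold jacg eg
  refine (abs_add_le _ _).trans ?_
  rw [abs_mul 2, abs_two]
  nlinarith [h1 j, h1 k, sq_nonneg (‖nabg a al p (bb j)‖ - ‖nabg a al p (bb k)‖)]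

end pt

theorem eg_cont {Ω : Set (ℂ × ℂ)} (hΩ : IsOpen Ω) {a : ℂ × ℂ → (ℂ × ℂ) →L[ℝ] ℝ} {al : ℂ × ℂ → ℂ}
    (ha : ContDiffOn ℝ ∞ a Ω) (hal : ContDiffOn ℝ ∞ al Ω) (r : ℝ) : ContinuousOn (eg r a al) Ω := by
  have h1 := hal.continuousOn
  have h2 := ha.continuousOn
  have h3 := hal.continuousOn_fderiv_of_isOpen hΩ (by simp)
  have h4 := ha.continuousOn_fderiv_of_isOpen hΩ (by simp)
  refine ((continuousOn_finsetSum _ fun j _ => ?_).add
    (continuousOn_const.mul ((continuousOn_const.sub (h1.norm.pow 2)).pow 2))).add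
    (continuousOn_const.mul (continuousOn_finsetSum _ fun j _ =>
      continuousOn_finsetSum _ fun k _ => ?_))
  · exact ((h3.clm_apply continuousOn_const).sub ((continuousOn_const.mul
      (Complex.continuous_ofReal.comp_continuousOn (h2.clm_apply continuousOn_const))).mul
      h1)).norm.pow 2
  · exact (((h4.clm_apply continuousOn_const).clm_apply continuousOn_const).sub
      ((h4.clm_apply continuousOn_const).clm_apply continuousOn_const)).pow 2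

/-- Higgs fields on a neighbourhood of the closed polydisc -/
structure HD where
  Ω : Set (ℂ × ℂ)
  opn : IsOpen Ω
  sub : CPD ⊆ Ω
  r : ℕ → ℝ
  a : ℕ → ℂ × ℂ → (ℂ × ℂ) →L[ℝ] ℝ
  al : ℕ → ℂ × ℂ → ℂ
  r_pos : ∀ n, 0 < r n
  r_lim : Tendsto r atTop atTop
  a_sm : ∀ n, ContDiffOn ℝ ∞ (a n) Ω
  al_sm : ∀ n, ContDiffOn ℝ ∞ (al n) Ω
  en : ∃ C, ∀ n, ∫ p in CPD, eg (r n) (a n) (al n) p ≤ C

namespace HD

variable (H : HD)

/-- the primitive of the Jacobian -/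
def be (n : ℕ) : ℂ × ℂ → (ℂ × ℂ) →L[ℝ] ℝ := bf (H.a n) (H.al n)

/-- the Jacobian -/
def JB (n : ℕ) (p u v : ℂ × ℂ) : ℝ := ddg (H.be n) p u v

/-- the majorant -/
def ee (n : ℕ) (p : ℂ × ℂ) : ℝ := 4 * eg (H.r n) (H.a n) (H.al n) p

theorem sub1 : PD 1 ⊆ H.Ω := PD1_sub.trans H.sub

theorem be_sm (n : ℕ) : ContDiffOn ℝ ∞ (H.be n) H.Ω := fun p hp =>
  (bf_contDiffAt (n := ⊤) ((H.al_sm n).contDiffAt (H.opn.mem_nhds hp))
    ((H.a_sm n).contDiffAt (H.opn.mem_nhds hp))).contDiffWithinAt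

theorem dbe_sm (n : ℕ) : ContDiffOn ℝ ∞ (fderiv ℝ (H.be n)) H.Ω :=
  (H.be_sm n).fderiv_of_isOpen H.opn (by simp)

theorem JB_eq {n : ℕ} {p : ℂ × ℂ} (hp : p ∈ H.Ω) (u v : ℂ × ℂ) :
    H.JB n p u v = jacg (H.a n) (H.al n) p u v :=
  ddg_bf (((H.al_sm n).contDiffAt (H.opn.mem_nhds hp)).of_le two_le_infty)
    (((H.a_sm n).contDiffAt (H.opn.mem_nhds hp)).of_le one_le_infty) u v

theorem JB_sm (n : ℕ) (u v : ℂ × ℂ) : ContDiffOn ℝ 1 (fun p => H.JB n p u v) H.Ω := by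
  have h := (H.dbe_sm n).of_le one_le_infty
  exact ((h.clm_apply contDiffOn_const).clm_apply contDiffOn_const).sub
    ((h.clm_apply contDiffOn_const).clm_apply contDiffOn_const)

theorem JB_closed {n : ℕ} {p : ℂ × ℂ} (hp : p ∈ H.Ω) (x y z : ℂ × ℂ) :
    fderiv ℝ (fun p => H.JB n p y z) p x = fderiv ℝ (fun p => H.JB n p x z) p y
      - fderiv ℝ (fun p => H.JB n p x y) p z := by
  have hn := H.opn.mem_nhds hp
  have hd : HasFDerivAt (fderiv ℝ (H.be n)) (fderiv ℝ (fderiv ℝ (H.be n)) p) p :=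
    ((((H.dbe_sm n).contDiffAt hn).differentiableAt (by simp))).hasFDerivAt
  have hder : ∀ u v w : ℂ × ℂ, fderiv ℝ (fun p => H.JB n p u v) p w =
      fderiv ℝ (fderiv ℝ (H.be n)) p w u v - fderiv ℝ (fderiv ℝ (H.be n)) p w v u := by
    intro u v w
    have h1 : ∀ u v : ℂ × ℂ, HasFDerivAt (fun p => fderiv ℝ (H.be n) p u v)
        ((((fderiv ℝ (fderiv ℝ (H.be n)) p).flip u)).flip v) p := by
      intro u v
      have := (hd.clm_apply (hasFDerivAt_const u p)).clm_apply (hasFDerivAt_const v p)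
      refine this.congr_fderiv ?_
      ext w <;> simp
    have h3 : HasFDerivAt (fun p => H.JB n p u v) _ p := (h1 u v).sub (h1 v u)
    rw [h3.fderiv]
    rfl
  have hsym : ∀ u w : ℂ × ℂ, fderiv ℝ (fderiv ℝ (H.be n)) p w u =
      fderiv ℝ (fderiv ℝ (H.be n)) p u w := fun u w =>
    ((((H.be_sm n).contDiffAt hn).of_le two_le_infty).isSymmSndFDerivAt (by simp)).eq w u
  rw [hder, hder, hder, hsym y x, hsym z x, hsym z y]
  ring

theorem ee_nonneg (n : ℕ) (p : ℂ × ℂ) : 0 ≤ H.ee n p :=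
  mul_nonneg (by norm_num) (eg_nonneg (H.r_pos n) _ _ _)

theorem ee_cont (n : ℕ) : ContinuousOn (H.ee n) H.Ω :=
  continuousOn_const.mul (eg_cont H.opn (H.a_sm n) (H.al_sm n) _)

theorem JB_le {n : ℕ} {p : ℂ × ℂ} (hp : p ∈ H.Ω) (j k : Fin 4) :
    |H.JB n p (bb j) (bb k)| ≤ H.ee n p / 2 := by
  rw [H.JB_eq hp, ee]
  linarith [jac_le (H.r_pos n) (H.a n) (H.al n) p j k]

theorem JB_le' {n : ℕ} {p : ℂ × ℂ} (hp : p ∈ H.Ω) (v : ℂ) (k : Fin 4) :
    |H.JB n p (v, 0) (bb k)| ≤ ‖v‖ * H.ee n p := by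
  have h0 : ((v, 0) : ℂ × ℂ) = v.re • bb 0 + v.im • bb 1 := by
    ext <;> simp [bb]
  have h1 : H.JB n p (v, 0) (bb k) =
      v.re * H.JB n p (bb 0) (bb k) + v.im * H.JB n p (bb 1) (bb k) := by
    rw [h0]
    simp only [JB, ddg, map_add, map_smul, ContinuousLinearMap.add_apply,
      ContinuousLinearMap.smul_apply, smul_eq_mul]
    ring
  rw [h1]
  refine (abs_add_le _ _).trans ?_
  rw [abs_mul, abs_mul]
  have h2 := mul_le_mul (Complex.abs_re_le_norm v) (H.JB_le (n := n) hp 0 k) (abs_nonneg _)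
    (norm_nonneg _)
  have h3 := mul_le_mul (Complex.abs_im_le_norm v) (H.JB_le (n := n) hp 1 k) (abs_nonneg _)
    (norm_nonneg _)
  linarith

/-- the vortex lemma -/
theorem vortex {n : ℕ} {z : ℂ} (hz : z ∈ ball (0 : ℂ) 1) {c : ℂ} {s : ℝ} (hs : 0 < s)
    (hc : H514.CSq c s ⊆ ball 0 1) {M : ℝ} (hM : H514.bdE (fun y => H.ee n (z, y)) c s ≤ M)
    (hsm : M / (H.r n * (2 * s)) + 2 * M / √(H.r n) ≤ 1 / 2) :
    ∃ k : ℤ, |(∫ y in H514.Sq c s, H.JB n (z, y) (0, 1) (0, Complex.I)) - 2 * Real.pi * k|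
      ≤ 4 * M / √(H.r n) := by
  rw [← Sq_eq] at hc
  have hm2 : MapsTo (fun y : ℂ => (z, y)) (Sq c s) H.Ω := fun y hy => H.sub1 ⟨hz, hc hy⟩
  have hcz : Continuous (fun y : ℂ => (z, y)) := by fun_prop
  have hzd : ∀ y : ℂ, HasFDerivAt (fun y : ℂ => (z, y)) (ContinuousLinearMap.inr ℝ ℂ ℂ) y :=
    fun y => (hasFDerivAt_const z y).prodMk (hasFDerivAt_id y)
  have hbe : ∀ y ∈ Sq c s, ∀ v : ℂ × ℂ, HasFDerivAt (fun y => H.be n (z, y) v)
      (((fderiv ℝ (H.be n) (z, y)).flip v).comp (ContinuousLinearMap.inr ℝ ℂ ℂ)) y := by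
    intro y hy v
    have h1 : HasFDerivAt (H.be n) (fderiv ℝ (H.be n) (z, y)) (z, y) :=
      (((H.be_sm n).contDiffAt (H.opn.mem_nhds (hm2 hy))).differentiableAt (by simp)).hasFDerivAt
    have h3 : HasFDerivAt (fun p => H.be n p v) ((fderiv ℝ (H.be n) (z, y)).flip v) (z, y) := by
      refine (h1.clm_apply (hasFDerivAt_const v (z, y))).congr_fderiv ?_
      ext w <;> simp
    exact h3.comp y (hzd y)
  have hdc : ∀ v : ℂ × ℂ, ContinuousOn (fun y : ℂ =>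
      ((fderiv ℝ (H.be n) (z, y)).flip v).comp (ContinuousLinearMap.inr ℝ ℂ ℂ)) (Sq c s) :=
    fun v => (((ContinuousLinearMap.flipₗᵢ ℝ (ℂ × ℂ) (ℂ × ℂ) ℝ).continuous.comp_continuousOn
      ((H.dbe_sm n).continuousOn.comp hcz.continuousOn hm2)).clm_apply
      continuousOn_const).clm_comp continuousOn_const
  have hen : ContinuousOn (fun y : ℂ => H.ee n (z, y)) (Sq c s) :=
    (H.ee_cont n).comp hcz.continuousOn hm2
  have hdata : SqData c s (H.r n) (fun y => H.al n (z, y))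
      (fun y => (fderiv ℝ (H.al n) (z, y)).comp (ContinuousLinearMap.inr ℝ ℂ ℂ))
      (fun y => (H.a n (z, y)).comp (ContinuousLinearMap.inr ℝ ℂ ℂ)) (fun y => H.ee n (z, y)) :=
    ⟨fun y hy => (((H.al_sm n).contDiffAt (H.opn.mem_nhds (hm2 hy))).differentiableAt
      (by simp)).hasFDerivAt.comp y (hzd y),
    (((H.al_sm n).continuousOn_fderiv_of_isOpen H.opn (by simp)).comp hcz.continuousOn
      hm2).clm_comp continuousOn_const,
    ((H.a_sm n).continuousOn.comp hcz.continuousOn hm2).clm_comp continuousOn_const, hen,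
    fun y _ => nab_le (H.r_pos n) (H.a n) (H.al n) (z, y) 2,
    fun y _ => nab_le (H.r_pos n) (H.a n) (H.al n) (z, y) 3⟩
  obtain ⟨k, hk⟩ := vortex_sq hs (H.r_pos n) hdata (g1' := fun y =>
      ((fderiv ℝ (H.be n) (z, y)).flip (0, 1)).comp (ContinuousLinearMap.inr ℝ ℂ ℂ))
    (g2' := fun y =>
      ((fderiv ℝ (H.be n) (z, y)).flip (0, Complex.I)).comp (ContinuousLinearMap.inr ℝ ℂ ℂ))
    (fun y hy => (hbe y hy (0, 1)).congr_of_eventuallyEq (Eventually.of_forall fun y' =>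
      (bf_apply (H.a n) (H.al n) (z, y') (0, 1)).symm))
    (fun y hy => (hbe y hy (0, Complex.I)).congr_of_eventuallyEq (Eventually.of_forall fun y' =>
      (bf_apply (H.a n) (H.al n) (z, y') (0, Complex.I)).symm))
    (hdc _) (hdc _) (M := M) (by rw [bd_eq hs.le hen]; exact hM) hsm
  exact ⟨k, by rw [int_Sq_eq]; exact hk⟩

end HD

end Vale.Agent.P247H.Gn
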