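import Vale.Agent.P247A.Spec2
import Vale.Agent.P247M.LBOps
import Vale.Agent.P247N.Rep1

/-!
# P247, row ICURX: the Jacobian is cohomologous to the curvature; the limit current
-/

set_option linter.all false

open scoped Manifold ContDiff Topology ComplexConjugate
open Set MeasureTheory Filter Metric

noncomputable section

namespace Vale.Agent.P247H.Jc

open Vale.Agent.P247X Vale.Agent.P247.SCY Vale.Agent.P247.SCY.HS Vale.Agent.P247A
open Vale.Agent.P247M
open Vale.Agent.P267.H175 (SmAt dF)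
open Vale.Agent.P267

variable {X : Type} [Cl4 X]

/-- the one-form `Im (conj g * d g)` -/
def dA (g : X → ℂ) : RF X 1 :=
  (fun y => (g y).re • d0 (fun z => (g z).im) y) - fun y => (g y).im • d0 (fun z => (g z).re) y

theorem dA_apply {g : X → ℂ} {x : X} (h : SmC g x) (v : HS.E4) :
    dA g x ![v] = (conj (g x) * dfc g x v).im := by
  show (g x).re * Df (fun z => (g z).im) x v - (g x).im * Df (fun z => (g z).re) x v = _
  rw [Df_re h, Df_im h, Complex.mul_im, Complex.conj_re, Complex.conj_im]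
  ring

theorem smAt_dA {g : X → ℂ} {V : Set X} (hV : IsOpen V) (h : ∀ y ∈ V, SmC g y) {x : X}
    (hx : x ∈ V) : SmAt (dA g) x :=
  smAt_sub (smAt_fsmul (h x hx).re (smAt_d0 hV (fun y hy => (h y hy).im) hx))
    (smAt_fsmul (h x hx).im (smAt_d0 hV (fun y hy => (h y hy).re) hx))

theorem dF_dA {g : X → ℂ} {V : Set X} (hV : IsOpen V) (h : ∀ y ∈ V, SmC g y) {x : X}
    (hx : x ∈ V) (u v : HS.E4) : dF (dA g) x ![u, v] = 2 * (conj (dfc g x u) * dfc g x v).im := by
  have s1 := smAt_d0 hV (fun y hy => (h y hy).im) hx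
  have s2 := smAt_d0 hV (fun y hy => (h y hy).re) hx
  rw [dA, dF_sub (smAt_fsmul (h x hx).re s1) (smAt_fsmul (h x hx).im s2),
    dF_fsmul (h x hx).re s1, dF_fsmul (h x hx).im s2, dF_d0 hV (fun y hy => (h y hy).im) hx,
    dF_d0 hV (fun y hy => (h y hy).re) hx, smul_zero, smul_zero, add_zero, add_zero,
    ContinuousAlternatingMap.sub_apply, d0, d0, wd_one, wd_one]
  simp only [Df_re (h x hx), Df_im (h x hx), Complex.mul_im, Complex.conj_re, Complex.conj_im]
  ring

/-- the derivative of a unit function -/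
theorem dfc_unit {g : X → ℂ} {x : X} (h : SmC g x) (n : ∀ᶠ y in 𝓝 x, ‖g y‖ = 1) (v : HS.E4) :
    dfc g x v = Complex.I * ((conj (g x) * dfc g x v).im : ℝ) * g x := by
  have h1 : dfc (fun y => conj (g y) * g y) x v = 0 := by
    rw [dfc_congr (g' := fun _ => 1) (n.mono fun y hy => conj_mul_self hy), dfc_const]
  rw [dfc_mul h.conj h, dfc_conj h] at h1
  have h2 := conj_mul_self n.self_of_nhds
  have h3 := congrArg Complex.re h1
  have h4 : conj (g x) * dfc g x v = Complex.I * ((conj (g x) * dfc g x v).im : ℝ) := by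
    apply Complex.ext
    · simp only [Complex.add_re, Complex.mul_re, Complex.conj_re, Complex.conj_im,
        Complex.zero_re] at h3
      simp only [Complex.mul_re, Complex.conj_re, Complex.conj_im, Complex.I_re, Complex.I_im,
        Complex.ofReal_re, Complex.ofReal_im]
      linarith
    · simp
  rw [← h4]
  linear_combination (-dfc g x v) * h2

variable {μ : Form X 4} {w : Tri X} {L : LB X} (H : HiggsX μ w L)

theorem smσ (n : ℕ) {i : Fin L.n} {x : X} (hx : x ∈ L.U i) : SmC (H.σ n i) x :=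
  (H.σ_smooth n i).contMDiffAt ((L.opn i).mem_nhds hx)

/-- gauge invariance of the covariant derivative -/
theorem nab_tr (n : ℕ) {i j : Fin L.n} {x : X} (hx : x ∈ L.U i ∩ L.U j) (v : HS.E4) :
    nabX L (H.a n) i (H.σ n i) x v = L.g i j x * nabX L (H.a n) j (H.σ n j) x v := by
  have hn := ((L.opn i).inter (L.opn j)).mem_nhds hx
  have h1 : H.σ n i =ᶠ[𝓝 x] fun y => L.g i j y * H.σ n j y :=
    Filter.mem_of_superset hn fun y hy => H.σ_tr n i j y hy
  have h2 := dfc_unit (L.smC hx) (Filter.mem_of_superset hn fun y hy => L.g_norm i j y hy) v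
  have h3 : L.A i x ![v] = L.A j x ![v] + (conj (L.g i j x) * dfc (L.g i j) x v).im := by
    linarith [L.A_tr i j x hx v]
  unfold nabX
  rw [dfc_congr h1, dfc_mul (L.smC hx) (smσ H n hx.2), H.σ_tr n i j x hx, h3]
  generalize (conj (L.g i j x) * dfc (L.g i j) x v).im = t at h2
  rw [h2]
  push_cast
  ring

/-- the connection form -/
def cA (n : ℕ) (i : Fin L.n) : RF X 1 := rf (L.A i) + rf (H.a n)

theorem sm_cA (n : ℕ) {i : Fin L.n} {x : X} (hx : x ∈ L.U i) : SmAt (cA H n i) x :=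
  (L.smA hx).add (smooth_iff.1 (H.a_smooth n) x)

theorem dF_cA (n : ℕ) {i : Fin L.n} {x : X} (hx : x ∈ L.U i) : dF (cA H n i) x = rf (H.F n) x := by
  have h := smooth_iff.1 (H.a_smooth n)
  rw [cA, H175.dF_add (L.smA hx) (h x), L.dFA hx,
    (dOn_iff fun y _ => h y).1 (H.F_eq n) x (mem_univ x)]
  exact add_sub_cancel _ _

/-- `1 - |σ|²` -/
def df (n : ℕ) (i : Fin L.n) (y : X) : ℝ := 1 - (conj (H.σ n i y) * H.σ n i y).re

theorem df_eq (n : ℕ) (i : Fin L.n) (y : X) : df H n i y = 1 - ‖H.σ n i y‖ ^ 2 := by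
  rw [df, Complex.conj_mul', ← Complex.ofReal_pow, Complex.ofReal_re]

theorem sm_df (n : ℕ) {i : Fin L.n} {x : X} (hx : x ∈ L.U i) : SmF (df H n i) x :=
  contMDiffAt_const.sub ((smσ H n hx).conj.mul (smσ H n hx)).re

/-- the local primitive -/
def bl (n : ℕ) (i : Fin L.n) : RF X 1 :=
  dA (H.σ n i) + (fun y => df H n i y • cA H n i y) - rf (L.A i)

theorem bl_apply (n : ℕ) {i : Fin L.n} {x : X} (hx : x ∈ L.U i) (v : HS.E4) :
    bl H n i x ![v] = (conj (H.σ n i x) * nabX L (H.a n) i (H.σ n i) x v).im + H.a n x ![v] := by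
  show dA (H.σ n i) x ![v] + df H n i x * (L.A i x ![v] + H.a n x ![v]) - L.A i x ![v] = _
  rw [dA_apply (smσ H n hx), df]
  unfold nabX
  simp only [Complex.mul_im, Complex.mul_re, Complex.conj_re, Complex.conj_im, Complex.sub_re,
    Complex.sub_im, Complex.I_re, Complex.I_im, Complex.ofReal_re, Complex.ofReal_im]
  ring

theorem sm_bl (n : ℕ) {i : Fin L.n} {x : X} (hx : x ∈ L.U i) : SmAt (bl H n i) x :=
  smAt_sub ((smAt_dA (L.opn i) (fun _ => smσ H n) hx).add
    (smAt_fsmul (sm_df H n hx) (sm_cA H n hx))) (L.smA hx)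

theorem dF_bl (n : ℕ) {i : Fin L.n} {x : X} (hx : x ∈ L.U i) :
    dF (bl H n i) x = rf (H.jac n) x - (2 * Real.pi) • rf L.F x := by
  have s1 := smAt_dA (L.opn i) (fun _ => smσ H n) hx
  have s2 := smAt_fsmul (sm_df H n hx) (sm_cA H n hx)
  have h := smσ H n hx
  rw [bl, dF_sub (s1.add s2) (L.smA hx), H175.dF_add s1 s2, L.dFA hx,
    dF_fsmul (sm_df H n hx) (sm_cA H n hx), dF_cA H n hx]
  congr 1
  refine alt2_ext fun u v => ?_
  have h1 : ∀ u : HS.E4, Df (df H n i) x u = -(2 * (conj (H.σ n i x) * dfc (H.σ n i) x u).re) := by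
    intro u
    have h2 : Df (df H n i) x = _ := Df_sub contMDiffAt_const (h.conj.mul h).re
    rw [h2, Df_const, ContinuousLinearMap.sub_apply, Df_re (h.conj.mul h), dfc_mul h.conj h,
      dfc_conj h]
    simp only [Complex.mul_re, Complex.conj_re, Complex.conj_im, Complex.add_re,
      ContinuousLinearMap.zero_apply]
    ring
  have h2 : rf (H.jac n) x ![u, v] = _ := H.jac_eq n i x hx u v
  have h3 : ∀ u : HS.E4, cA H n i x ![u] = L.A i x ![u] + H.a n x ![u] := fun _ => rfl
  rw [ContinuousAlternatingMap.add_apply, ContinuousAlternatingMap.add_apply,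
    dF_dA (L.opn i) (fun _ => smσ H n) hx, wd_one', h1, h1, h2, h3, h3, ← df_eq]
  show _ + (_ + df H n i x * H.F n x ![u, v]) = _
  unfold nabX
  simp only [Complex.mul_im, Complex.mul_re, Complex.conj_re, Complex.conj_im, Complex.sub_re,
    Complex.sub_im, Complex.I_re, Complex.I_im, Complex.ofReal_re, Complex.ofReal_im]
  ring

theorem bl_tr (n : ℕ) {i j : Fin L.n} {x : X} (hx : x ∈ L.U i ∩ L.U j) :
    bl H n i x = bl H n j x := by
  refine alt1_ext fun v => ?_
  rw [bl_apply H n hx.1, bl_apply H n hx.2, nab_tr H n hx, H.σ_tr n i j x hx, map_mul]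
  congr 2
  linear_combination (conj (H.σ n j x) * nabX L (H.a n) j (H.σ n j) x v) *
    conj_mul_self (L.g_norm i j x hx)

theorem exists_prim (n : ℕ) : ∃ η : RF X 1, (∀ x, SmAt η x) ∧
    dF η = rf (H.jac n) - rf fun x => (2 * Real.pi) • L.F x := by
  choose ix hix using L.cov
  have h : ∀ x, (fun y => bl H n (ix y) y) =ᶠ[𝓝 x] bl H n (ix x) := fun x =>
    Filter.mem_of_superset ((L.opn _).mem_nhds (hix x)) fun y hy => bl_tr H n ⟨hix y, hy⟩
  exact ⟨fun y => bl H n (ix y) y, fun x => (sm_bl H n (hix x)).congr (h x),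
    funext fun x => (H175.dF_congr (h x)).trans (dF_bl H n (hix x))⟩

theorem coh (n : ℕ) : Coh (H.jac n) fun x => (2 * Real.pi) • L.F x := coh_iff.2 (exists_prim H n)

theorem sc_jac (n : ℕ) : SC (H.jac n) := by
  obtain ⟨η, h1, h2⟩ := exists_prim H n
  have h3 : H.jac n = fun x => (2 * Real.pi) • L.F x + hs (dF η) x := by
    rw [h2]
    funext x
    exact (add_sub_cancel _ _).symm
  rw [h3]
  exact (L.F_sc.smul _).add (sc_iff.2 ⟨smAt_dF' h1, dF_dF' h1⟩)

omit H in
theorem pair_add_r (hμ : Volume μ) {α φ ψ : Form X 2} (h : Cont α) (h1 : Cont φ) (h2 : Cont ψ) :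
    pair μ α (fun x => φ x + ψ x) = pair μ α φ + pair μ α ψ := by
  unfold pair
  rw [← integral_add (integrable_of_cont hμ.smooth (continuous_quot_of_cont hμ h h1))
    (integrable_of_cont hμ.smooth (continuous_quot_of_cont hμ h h2))]
  congr 1
  funext x
  simp only [quot, wedge, ContinuousAlternatingMap.add_apply]
  ring

omit H in
theorem pair_smul_r (α φ : Form X 2) (c : ℝ) : pair μ α (fun x => c • φ x) = c * pair μ α φ := by
  rw [P247M.pair_comm, P247M.pair_smul_left, P247M.pair_comm]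

/-- the limit current -/
theorem exists_T (hμ : Volume μ) (hw : Hypersymplectic μ w) :
    ∃ (l : Ultrafilter ℕ) (T : Form X 2 → ℝ), (l : Filter ℕ) ≤ atTop ∧ PCur (Jw w) T ∧
      IsCls μ T L.F ∧ ∀ φ, Cont φ →
        Tendsto (fun n => 1 / (2 * Real.pi) * pair μ (H.jac n) φ) l (𝓝 (T φ)) := by
  set l : Ultrafilter ℕ := Ultrafilter.of atTop
  have hl : (l : Filter ℕ) ≤ atTop := Ultrafilter.of_le _
  have hc : ∀ n φ, SC φ → pair μ (H.jac n) φ = 2 * Real.pi * pair μ L.F φ := fun n φ hφ => by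
    rw [(coh H n).pair hμ hw (sc_jac H n).1 (L.F_sc.smul _).1 hφ, P247M.pair_smul_left]
  have hj := fun n => (sc_jac H n).cont
  have key : ∀ φ, ∃ a : ℝ, Cont φ →
      Tendsto (fun n => 1 / (2 * Real.pi) * pair μ (H.jac n) φ) l (𝓝 a) := by
    intro φ
    by_cases hφ : Cont φ
    swap
    · exact ⟨0, fun h => (hφ h).elim⟩
    obtain ⟨C, -, hC⟩ := P247N.Rep.dom hμ hw hφ
    have h2 := (hyp_sc hw 2).cont.smul C
    have h3 : ∀ s : ℝ, |s| = 1 → ∀ᶠ n in atTop,
        -1 ≤ C * (2 * Real.pi * pair μ L.F (w 2)) + s * pair μ (H.jac n) φ := fun s hs => by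
      filter_upwards [H.pos _ (h2.add (hφ.smul s)) (fun x v => by
        have h4 : |s * φ x ![v, Jw w x v]| ≤ C * w 2 x ![v, Jw w x v] := by
          rw [abs_mul, hs, one_mul]
          exact hC x v
        show 0 ≤ C * w 2 x ![v, Jw w x v] + s * φ x ![v, Jw w x v]
        linarith [(abs_le.1 h4).1]) 1 one_pos] with n hn
      rwa [pair_add_r hμ (hj n) h2 (hφ.smul s), pair_smul_r, pair_smul_r,
        hc n _ (hyp_sc hw 2)] at hn
    set B := C * (2 * Real.pi * pair μ L.F (w 2)) + 1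
    obtain ⟨a, -, ha⟩ := (isCompact_Icc (a := -B) (b := B)).ultrafilter_le_nhds
      (l.map fun n => pair μ (H.jac n) φ) (le_principal_iff.2 (mem_map.2 (hl (by
        filter_upwards [h3 1 abs_one, h3 (-1) (by simp)] with n h h'
        constructor <;> linarith))))
    exact ⟨_, fun _ => Tendsto.const_mul _ ha⟩
  choose T hT using key
  have hcls : ∀ φ, SC φ → T φ = pair μ L.F φ := fun φ hφ => by
    refine tendsto_nhds_unique (hT φ hφ.cont) (tendsto_const_nhds.congr fun n => ?_)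
    rw [hc n φ hφ]
    field_simp
  refine ⟨l, T, hl, ⟨⟨fun φ ψ h h' => ?_, fun c φ h => ?_⟩, fun φ h h' => ?_, fun φ h h' => ?_⟩,
    ⟨L.F_sc, hcls⟩, hT⟩
  · refine tendsto_nhds_unique (hT _ (h.add h')) (((hT φ h).add (hT ψ h')).congr fun n => ?_)
    rw [pair_add_r hμ (hj n) h h', mul_add]
  · refine tendsto_nhds_unique (hT _ (h.smul c)) (((hT φ h).const_mul c).congr fun n => ?_)
    rw [pair_smul_r]
    ring
  · refine tendsto_nhds_unique (hT φ (cont_of_smooth h)) (tendsto_const_nhds.congr fun n => ?_)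
    rw [P247M.pair_comm, pair_exact hμ (vol_fin hμ hw) hw h' (sc_jac H n).1 (sc_jac H n).2,
      mul_zero]
  · refine le_of_forall_pos_le_add fun ε hε => ?_
    have h1 := ge_of_tendsto (hT φ h) (b := -ε) (((H.pos φ h h' (2 * Real.pi * ε)
      (by positivity)).filter_mono hl).mono fun n hn => by
        rw [one_div, ← div_eq_inv_mul, le_div_iff₀ (by positivity)]
        linarith)
    linarith

end Vale.Agent.P247H.Jc
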