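import Vale.Agent.P247H.Sli
import Vale.Agent.P247H.Jac
import Vale.Agent.P247H.Gau

/-!
# P247, row ICURX: the Higgs fields in a global gauge on a polydisc
-/

set_option linter.all false

open scoped Manifold ContDiff Topology ComplexConjugate ENNReal
open Set MeasureTheory Filter Metric

noncomputable section

namespace Vale.Agent.P247H.Pr

open Vale.Agent.P247X Vale.Agent.P247.SCY Vale.Agent.P247.SCY.HS Vale.Agent.P247A
open Vale.Agent.P247M Vale.Agent.P247H.Gn Vale.Agent.P247H.Jc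
open Vale.Agent.P247.H667 (nabg ddg jacg bf bf_apply' bf_contDiffAt ddg_bf CPD n4 isCompact_CPD
  two_le_infty one_le_infty mp_n4)
open Vale.Agent.P247.H574 (PD)
open Vale.Agent.P247.H74 (R4 e)
open Vale.Agent.P247.H899 (isOpen_PD)

/-- the linear form of a one-form -/
def un : ((ℂ × ℂ) [⋀^Fin 1]→L[ℝ] ℝ) ≃L[ℝ] ((ℂ × ℂ) →L[ℝ] ℝ) :=
  (ContinuousAlternatingMap.ofSubsingletonLIE (𝕜 := ℝ) (E := ℂ × ℂ) (F := ℝ)
    (0 : Fin 1)).symm.toContinuousLinearEquiv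

theorem un_apply (a : (ℂ × ℂ) [⋀^Fin 1]→L[ℝ] ℝ) (v : ℂ × ℂ) : un a v = a ![v] := by
  conv_rhs => rw [← un.symm_apply_apply a]
  rfl

theorem ddg_un (a : ℂ × ℂ → (ℂ × ℂ) [⋀^Fin 1]→L[ℝ] ℝ) (p u v : ℂ × ℂ) :
    ddg (fun p => un (a p)) p u v = extDeriv a p ![u, v] := by
  have h : fderiv ℝ (fun p => un (a p)) p = _ := un.comp_fderiv (f := a) (x := p)
  rw [extDeriv, ContinuousAlternatingMap.alternatizeUncurryFin_apply, Fin.sum_univ_two, ddg, h]
  have e1 : Fin.removeNth (0 : Fin 2) ![u, v] = ![v] := by funext i; fin_cases i; rfl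
  have e2 : Fin.removeNth (1 : Fin 2) ![u, v] = ![u] := by funext i; fin_cases i; rfl
  simp [un_apply, e1, e2, sub_eq_add_neg]

theorem fd_unit {h : ℂ × ℂ → ℂ} {p : ℂ × ℂ} (hd : DifferentiableAt ℝ h p)
    (n : ∀ᶠ y in 𝓝 p, ‖h y‖ = 1) (u : ℂ × ℂ) :
    fderiv ℝ h p u = Complex.I * ((conj (h p) * fderiv ℝ h p u).im : ℝ) * h p := by
  have h0 := (Complex.conjCLE.hasFDerivAt.comp p hd.hasFDerivAt).mul hd.hasFDerivAt
  have h1 := DFunLike.congr_fun (h0.unique ((hasFDerivAt_const 1 p).congr_of_eventuallyEq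
    (n.mono fun y hy => conj_mul_self hy))) u
  have h2 := conj_mul_self n.self_of_nhds
  have h3 := congrArg Complex.re h1
  have h4 : conj (h p) * fderiv ℝ h p u = Complex.I * ((conj (h p) * fderiv ℝ h p u).im : ℝ) := by
    apply Complex.ext
    · simp at h3 ⊢
      linarith
    · simp
  rw [← h4]
  linear_combination (-fderiv ℝ h p u) * h2

theorem ddg_unit {h : ℂ × ℂ → ℂ} {p : ℂ × ℂ} (hd : ContDiffAt ℝ ∞ h p)
    (n : ∀ᶠ y in 𝓝 p, ‖h y‖ = 1) (u v : ℂ × ℂ) : ddg (bf 0 h) p u v = 0 := by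
  have h1 := fd_unit (hd.differentiableAt (by simp)) n
  rw [ddg_bf (a := 0) (hd.of_le two_le_infty) contDiffAt_const, jacg, n.self_of_nhds, nabg, nabg,
    h1 u, h1 v]
  generalize (conj (h p) * fderiv ℝ h p u).im = s
  generalize (conj (h p) * fderiv ℝ h p v).im = t
  simp
  ring

variable {X : Type} [Cl4 X] {μ : Form X 4} {w : Tri X} {L : LB X} (H : HiggsX μ w L)
  {P : ℂ × ℂ → X}

theorem fd_comp {s : X → ℂ} {p : ℂ × ℂ} (hP : ContMDiffAt 𝓘(ℝ, ℂ × ℂ) (𝓡 4) ∞ P p)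
    (hs : SmC s (P p)) : HasFDerivAt (fun p => s (P p)) (fderiv ℝ (fun p => s (P p)) p) p ∧
      ∀ u, fderiv ℝ (fun p => s (P p)) p u = dfc s (P p) (dP P p u) := by
  refine ⟨((contMDiffAt_iff_contDiffAt.1 (hs.comp p hP)).differentiableAt (by simp)).hasFDerivAt,
    fun u => ?_⟩
  rw [← mfderiv_eq_fderiv]
  exact DFunLike.congr_fun (mfderiv_comp p (hs.mdifferentiableAt (by simp))
    (hP.mdifferentiableAt (by simp))) u

variable (P) in
/-- the connection form in the gauge `h` -/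
def aL (h : ℂ × ℂ → ℂ) (n : ℕ) (i : Fin L.n) (p : ℂ × ℂ) : (ℂ × ℂ) →L[ℝ] ℝ :=
  un (pb P (hs (cA H n i)) p) - bf 0 h p

variable (P) in
/-- the section in the gauge `h` -/
def sL (h : ℂ × ℂ → ℂ) (n : ℕ) (i : Fin L.n) (p : ℂ × ℂ) : ℂ := conj (h p) * H.σ n i (P p)

theorem aL_apply (h : ℂ × ℂ → ℂ) (n : ℕ) (i : Fin L.n) (p u : ℂ × ℂ) : aL H P h n i p u =
    L.A i (P p) ![dP P p u] + H.a n (P p) ![dP P p u] - (conj (h p) * fderiv ℝ h p u).im := by
  rw [aL, ContinuousLinearMap.sub_apply, un_apply, pb_one, bf_apply']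
  simp only [Pi.zero_apply, ContinuousLinearMap.zero_apply, mul_zero, add_zero]
  rfl

section loc

variable (hP : ContMDiffOn 𝓘(ℝ, ℂ × ℂ) (𝓡 4) ∞ P (PD 2)) {h : ℂ × ℂ → ℂ} (n : ℕ) {i : Fin L.n}
  {p : ℂ × ℂ} (hp : p ∈ PD 2) (hi : P p ∈ L.U i) (hh : ContDiffAt ℝ ∞ h p)
include hP hp hi hh

theorem sm_aL : ContDiffAt ℝ ∞ (aL H P h n i) p :=
  (un.contDiff.contDiffAt.comp p (contDiffAt_pb (isOpen_PD 2) hP hp (sm_cA H n hi))).sub
    (bf_contDiffAt (n := ⊤) hh contDiffAt_const)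

theorem sm_sL : ContDiffAt ℝ ∞ (sL H P h n i) p :=
  (Complex.conjCLE.contDiff.contDiffAt.comp p hh).mul
    (contMDiffAt_iff_contDiffAt.1 ((smσ H n hi).comp p (param_at (isOpen_PD 2) hP hp)))

variable (hn : ∀ᶠ y in 𝓝 p, ‖h y‖ = 1)
include hn

theorem nab_L (u : ℂ × ℂ) : nabg (aL H P h n i) (sL H P h n i) p u =
    conj (h p) * nabX L (H.a n) i (H.σ n i) (P p) (dP P p u) := by
  have hd := hh.differentiableAt (by simp)
  obtain ⟨h1, h2⟩ := fd_comp (param_at (isOpen_PD 2) hP hp) (smσ H n hi)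
  have h3 : HasFDerivAt (sL H P h n i) _ p :=
    (Complex.conjCLE.hasFDerivAt.comp p hd.hasFDerivAt).mul h1
  have h4 := fd_unit hd hn u
  rw [nabg, h3.fderiv, aL_apply]
  unfold nabX sL
  generalize (conj (h p) * fderiv ℝ h p u).im = t at h4
  simp only [ContinuousLinearMap.add_apply, ContinuousLinearMap.smul_apply, h2, smul_eq_mul,
    ContinuousLinearMap.comp_apply, Function.comp, ContinuousLinearEquiv.coe_coe,
    Complex.conjCLE_apply, h4, map_mul, Complex.conj_I, Complex.conj_ofReal]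
  push_cast
  ring

theorem ddg_L (u v : ℂ × ℂ) :
    ddg (aL H P h n i) p u v = H.F n (P p) ![dP P p u, dP P p v] := by
  have h1 := ((un.contDiff.contDiffAt.comp p (contDiffAt_pb (isOpen_PD 2) hP hp
    (α := hs (cA H n i)) (sm_cA H n hi))).differentiableAt (by simp))
  have h2 := (bf_contDiffAt (n := ⊤) (a := 0) hh contDiffAt_const).differentiableAt (by simp)
  have h3 : fderiv ℝ (aL H P h n i) p = _ := fderiv_fun_sub h1 h2
  have h4 := ddg_un (pb P (hs (cA H n i))) p u v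
  have h5 := ddg_unit hh hn u v
  rw [extDeriv_pb (isOpen_PD 2) hP (α := hs (cA H n i)) hp (sm_cA H n hi), pb_two] at h4
  have h6 : hs (P267.H175.dF (rf (hs (cA H n i)))) (P p) = H.F n (P p) := dF_cA H n hi
  rw [h6] at h4
  unfold ddg at h4 h5 ⊢
  rw [h3]
  simp only [ContinuousLinearMap.sub_apply]
  exact (fun {a b c d f : ℝ} (h : a - b = f) (h' : c - d = 0) =>
    (by linarith : a - c - (b - d) = f)) h4 h5

end loc

theorem bb_eq (j : Fin 4) : n4 (e j) = bb j := by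
  fin_cases j
  exacts [P247.H667.n4_e0, P247.H667.n4_e1, P247.H667.n4_e2, P247.H667.n4_e3]

theorem exists_HD (hP : ContMDiffOn 𝓘(ℝ, ℂ × ℂ) (𝓡 4) ∞ P (PD 2))
    (hE : ∀ i (K : Set R4), IsCompact K → K ⊆ n4 ⁻¹' PD 2 → (fun y => P (n4 y)) '' K ⊆ L.U i →
      ∃ C : ℝ, ∀ n, ∫ y in K, (∑ j, ‖nabX L (H.a n) i (H.σ n i) (P (n4 y))
        (dm4 (fun y => P (n4 y)) y (e j))‖ ^ 2 + H.r n * (1 - ‖H.σ n i (P (n4 y))‖ ^ 2) ^ 2 +
        (1 / H.r n) * ∑ j, ∑ k, H.F n (P (n4 y))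
          ![dm4 (fun y => P (n4 y)) y (e j), dm4 (fun y => P (n4 y)) y (e k)] ^ 2) ≤ C) :
    ∃ G : HD, ∀ n, ∀ p ∈ PD 1, ∀ u v, G.JB n p u v = pb P (H.jac n) p ![u, v] := by
  have hK : closedBall (0 : ℂ × ℂ) (3 / 2) ⊆ PD 2 :=
    (closedBall_subset_ball (by norm_num)).trans (ball_prod_same 0 0 2).ge
  have hΩ : ball (0 : ℂ × ℂ) (3 / 2) ⊆ PD 2 := ball_subset_closedBall.trans hK
  have hC : CPD ⊆ ball (0 : ℂ × ℂ) (3 / 2) :=
    (closedBall_prod_same 0 0 1).le.trans (closedBall_subset_ball (by norm_num))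
  obtain ⟨h, h1, h2⟩ := Gg.gauge L (isOpen_PD 2) hP (isCompact_closedBall 0 (3 / 2)) hK
    fun p hp t ht => by
      rw [mem_closedBall_zero_iff] at hp ⊢
      rw [norm_smul, Real.norm_of_nonneg ht.1]
      exact (mul_le_of_le_one_left (norm_nonneg _) ht.2).trans hp
  set Ω := ball (0 : ℂ × ℂ) (3 / 2)
  have hN : ∀ i, ∀ p ∈ Ω, P p ∈ L.U i → ∀ᶠ y in 𝓝 p, y ∈ Ω ∧ P y ∈ L.U i := fun i p hp hi =>
    (isOpen_ball.eventually_mem hp).and
      ((param_at (isOpen_PD 2) hP (hΩ hp)).continuousAt.eventually ((L.opn i).mem_nhds hi))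
  have hs := fun i p (hp : p ∈ Ω) hi => (h1 i p (ball_subset_closedBall hp) hi).1
  have hn : ∀ i, ∀ p ∈ Ω, P p ∈ L.U i → ∀ᶠ y in 𝓝 p, ‖h i y‖ = 1 := fun i p hp hi =>
    (hN i p hp hi).mono fun y hy => (h1 i y (ball_subset_closedBall hy.1) hy.2).2
  choose ix hix using L.cov
  set a : ℕ → ℂ × ℂ → (ℂ × ℂ) →L[ℝ] ℝ := fun n p => aL H P (h (ix (P p))) n (ix (P p)) p
  set al : ℕ → ℂ × ℂ → ℂ := fun n p => sL H P (h (ix (P p))) n (ix (P p)) p
  have ha : ∀ n i, ∀ p ∈ Ω, P p ∈ L.U i → a n =ᶠ[𝓝 p] aL H P (h i) n i := fun n i p hp hi => by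
    filter_upwards [hN i p hp hi] with y hy
    have hm : P y ∈ L.U (ix (P y)) ∩ L.U i := ⟨hix _, hy.2⟩
    obtain ⟨h3, h4⟩ := fd_comp (param_at (isOpen_PD 2) hP (hΩ hy.1)) (L.smC hm)
    have h5 : HasFDerivAt (h (ix (P y))) _ y :=
      (h3.mul ((hs i y hy.1 hy.2).differentiableAt (by simp)).hasFDerivAt).congr_of_eventuallyEq
        (((hN _ y hy.1 hm.1).and (hN i y hy.1 hm.2)).mono fun z hz => h2 _ _ z ⟨hz.1.2, hz.2.2⟩)
    refine ContinuousLinearMap.ext fun u => ?_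
    have h6 := L.A_tr _ _ _ hm (dP P y u)
    have h7 : conj (h (ix (P y)) y) * fderiv ℝ (h (ix (P y))) y u = conj (h i y) * fderiv ℝ (h i) y u
        + conj (L.g (ix (P y)) i (P y)) * dfc (L.g (ix (P y)) i) (P y) (dP P y u) := by
      rw [h5.fderiv, h2 _ _ y hm, map_mul]
      simp only [ContinuousLinearMap.add_apply, ContinuousLinearMap.smul_apply, h4, smul_eq_mul]
      linear_combination (conj (h i y) * fderiv ℝ (h i) y u) * conj_mul_self (L.g_norm _ _ _ hm) +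
        (conj (L.g (ix (P y)) i (P y)) * dfc (L.g (ix (P y)) i) (P y) (dP P y u)) *
          conj_mul_self (hn i y hy.1 hy.2).self_of_nhds
    show aL H P _ n _ y u = _
    rw [aL_apply, aL_apply, h7, Complex.add_im]
    linarith
  have hal : ∀ n i, ∀ p ∈ Ω, P p ∈ L.U i → al n =ᶠ[𝓝 p] sL H P (h i) n i := fun n i p hp hi => by
    filter_upwards [hN i p hp hi] with y hy
    have hm : P y ∈ L.U (ix (P y)) ∩ L.U i := ⟨hix _, hy.2⟩
    show sL H P _ n _ y = _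
    rw [sL, sL, h2 _ _ y hm, H.σ_tr n _ _ _ hm, map_mul]
    linear_combination (conj (h i y) * H.σ n i (P y)) * conj_mul_self (L.g_norm _ _ _ hm)
  have e1 : ∀ n i, ∀ p ∈ Ω, P p ∈ L.U i → ∀ u, nabg (a n) (al n) p u =
      conj (h i p) * nabX L (H.a n) i (H.σ n i) (P p) (dP P p u) := fun n i p hp hi u => by
    rw [← nab_L H hP n (hΩ hp) hi (hs i p hp hi) (hn i p hp hi), nabg, nabg,
      (hal n i p hp hi).fderiv_eq, (hal n i p hp hi).self_of_nhds, (ha n i p hp hi).self_of_nhds]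
  have e2 : ∀ n, ∀ p ∈ Ω, ∀ u v, ddg (a n) p u v = H.F n (P p) ![dP P p u, dP P p v] :=
    fun n p hp u v => by
      rw [← ddg_L H hP n (hΩ hp) (hix _) (hs _ p hp (hix _)) (hn _ p hp (hix _)), ddg, ddg,
        (ha n _ p hp (hix _)).fderiv_eq]
  have e3 : ∀ n i, ∀ p ∈ Ω, P p ∈ L.U i → ‖al n p‖ = ‖H.σ n i (P p)‖ := fun n i p hp hi => by
    rw [(hal n i p hp hi).self_of_nhds, sL, norm_mul, Complex.norm_conj,
      (hn i p hp hi).self_of_nhds, one_mul]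
  have sa : ∀ n, ContDiffOn ℝ ∞ (a n) Ω := fun n p hp =>
    ((sm_aL H hP n (hΩ hp) (hix _) (hs _ p hp (hix _))).congr_of_eventuallyEq
      (ha n _ p hp (hix _))).contDiffWithinAt
  have sal : ∀ n, ContDiffOn ℝ ∞ (al n) Ω := fun n p hp =>
    ((sm_sL H hP n (hΩ hp) (hix _) (hs _ p hp (hix _))).congr_of_eventuallyEq
      (hal n _ p hp (hix _))).contDiffWithinAt
  have hint : ∀ n K, IsCompact K → K ⊆ Ω → ∫⁻ p in K, ENNReal.ofReal (eg (H.r n) (a n) (al n) p) =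
      ENNReal.ofReal (∫ p in K, eg (H.r n) (a n) (al n) p) := fun n K hK hK' =>
    (ofReal_integral_eq_lintegral_ofReal (((eg_cont isOpen_ball (sa n) (sal n) _).mono
      hK').integrableOn_compact hK) (Eventually.of_forall (eg_nonneg (H.r_pos n) _ _))).symm
  have key : ∃ C : ℝ≥0∞, C ≠ ⊤ ∧ ∀ n, ∫⁻ p in CPD, ENNReal.ofReal (eg (H.r n) (a n) (al n) p) ≤ C := by
    refine isCompact_CPD.induction_on (p := fun s => ∃ C : ℝ≥0∞, C ≠ ⊤ ∧
      ∀ n, ∫⁻ p in s, ENNReal.ofReal (eg (H.r n) (a n) (al n) p) ≤ C) ⟨0, by simp, by simp⟩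
      (fun s t hst ⟨C, h3, h4⟩ => ⟨C, h3, fun n => (lintegral_mono_set hst).trans (h4 n)⟩)
      (fun s t ⟨C, h3, h4⟩ ⟨C', h5, h6⟩ => ⟨C + C', ENNReal.add_ne_top.2 ⟨h3, h5⟩,
        fun n => (lintegral_union_le _ _ _).trans (add_le_add (h4 n) (h6 n))⟩) fun p hp => ?_
    obtain ⟨K, hKn, hKs, hKc⟩ := local_compact_nhds (hN _ p (hC hp) (hix _))
    obtain ⟨C, hC'⟩ := hE (ix (P p)) (n4 ⁻¹' K) (n4.toHomeomorph.isCompact_preimage.2 hKc)
      (fun y hy => hΩ (hKs hy).1) (by rintro _ ⟨y, hy, rfl⟩; exact (hKs hy).2)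
    refine ⟨K, mem_nhdsWithin_of_mem_nhds hKn, ENNReal.ofReal C, ENNReal.ofReal_ne_top, fun n => ?_⟩
    rw [hint n K hKc fun y hy => (hKs hy).1]
    refine ENNReal.ofReal_le_ofReal (le_trans (le_of_eq ?_) (hC' n))
    rw [← mp_n4.setIntegral_preimage_emb n4.toHomeomorph.measurableEmbedding]
    refine setIntegral_congr_fun (n4.continuous.measurable hKc.measurableSet) fun y hy => ?_
    have h3 : ∀ j, dm4 (fun y => P (n4 y)) y (e j) = dP P (n4 y) (bb j) := fun j => by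
      have h4 := DFunLike.congr_fun (mfderiv_comp (f := n4) y (param_diff (isOpen_PD 2) hP
        (hΩ (hKs hy).1)) n4.mdifferentiableAt) (e j)
      rw [n4.mfderiv_eq] at h4
      rw [← bb_eq]
      exact h4
    simp only [h3, eg, e1 n _ _ (hKs hy).1 (hKs hy).2, e2 n _ (hKs hy).1, norm_mul, one_mul,
      e3 n _ _ (hKs hy).1 (hKs hy).2, Complex.norm_conj, (hn _ _ (hKs hy).1 (hKs hy).2).self_of_nhds]
  obtain ⟨C, hC1, hC2⟩ := key
  let G : HD := ⟨Ω, isOpen_ball, hC, H.r, a, al, H.r_pos, H.r_lim, sa, sal, C.toReal, fun n =>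
    (ENNReal.ofReal_le_iff_le_toReal hC1).1 ((hint n _ isCompact_CPD hC).ge.trans (hC2 n))⟩
  refine ⟨G, fun n p hp u v => ?_⟩
  have hp' : p ∈ Ω := G.sub1 hp
  rw [G.JB_eq hp', pb_two, H.jac_eq n _ _ (hix _)]
  show jacg (a n) (al n) p u v = _
  rw [jacg, e1 n _ p hp' (hix _), e1 n _ p hp' (hix _), e2 n p hp', e3 n _ p hp' (hix _), map_mul]
  congr 3
  have h3 := conj_mul_self ((Complex.norm_conj _).trans (hn _ p hp' (hix _)).self_of_nhds)
  exact (mul_mul_mul_comm _ _ _ _).trans (by rw [h3, one_mul]; rfl)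

end Vale.Agent.P247H.Pr
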