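import Vale.Agent.P247H.Gen

/-!
# P247, row ICURX: the slice theorem for Higgs fields on a polydisc
-/

set_option linter.all false

open Set MeasureTheory Filter Topology Metric
open scoped ContDiff ENNReal

noncomputable section

namespace Vale.Agent.P247H.Gn.HD

open Vale.Agent.P247 Vale.Agent.P247.H667
open Vale.Agent.P247.H574 (PD IntM)
open Vale.Agent.P247.H899 (isOpen_PD)

variable (H : HD)

/-- the density -/
def Fn (sg : ℝ) (n : ℕ) (p : ℂ × ℂ) : ℝ := sg / (2 * Real.pi) * H.JB n p (0, 1) (0, Complex.I)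

theorem energy : ∃ C, 0 < C ∧ ∀ n, IntegrableOn (H.ee n) (PD 1) ∧ ∫ p in PD 1, H.ee n p ≤ C := by
  obtain ⟨C, hC⟩ := H.en
  refine ⟨4 * |C| + 1, by positivity, fun n => ?_⟩
  have h1 : IntegrableOn (H.ee n) CPD :=
    ((H.ee_cont n).mono H.sub).integrableOn_compact isCompact_CPD
  refine ⟨h1.mono_set PD1_sub, (setIntegral_mono_set h1 (Eventually.of_forall (H.ee_nonneg n))
    PD1_sub.eventuallyLE).trans ?_⟩
  have h2 : ∫ p in CPD, H.ee n p = 4 * ∫ p in CPD, eg (H.r n) (H.a n) (H.al n) p :=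
    integral_const_mul _ _
  linarith [hC n, le_abs_self C]

variable {sg : ℝ} (hsg : sg = 1 ∨ sg = -1)
include hsg

omit H in
theorem abs_c (x : ℝ) : |sg / (2 * Real.pi) * x| ≤ |x| := by
  have h : |sg / (2 * Real.pi)| ≤ 1 := by
    rw [abs_div, abs_of_pos (by positivity : 0 < 2 * Real.pi)]
    rcases hsg with rfl | rfl
    · rw [abs_one]; exact inv_two_pi_le
    · rw [abs_neg, abs_one]; exact inv_two_pi_le
  rw [abs_mul]
  exact mul_le_of_le_one_left (abs_nonneg _) h

theorem Fn_le {n : ℕ} {p : ℂ × ℂ} (hp : p ∈ PD 1) : |H.Fn sg n p| ≤ H.ee n p := by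
  have h1 := H.JB_le (n := n) (H.sub1 hp) 2 3
  have h2 := H.ee_nonneg n p
  exact (abs_c hsg _).trans (h1.trans (by linarith))

omit hsg in
theorem int_Fn (n : ℕ) {f : ℂ × ℂ → ℝ} (hf : Continuous f) :
    IntegrableOn (fun p => f p * H.Fn sg n p) (PD 1) :=
  ((hf.continuousOn.mul (continuousOn_const.mul
    ((H.JB_sm n _ _).continuousOn.mono H.sub))).integrableOn_compact isCompact_CPD).mono_set PD1_sub

theorem int_le {C : ℝ} (hC : ∀ n, IntegrableOn (H.ee n) (PD 1) ∧ ∫ p in PD 1, H.ee n p ≤ C)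
    (n : ℕ) {f : ℂ × ℂ → ℝ} {B : ℝ} (hB0 : 0 ≤ B) (hB : ∀ p ∈ PD 1, |f p| ≤ B) :
    |∫ p in PD 1, f p * H.Fn sg n p| ≤ C * B := by
  rw [← Real.norm_eq_abs, mul_comm]
  refine le_trans ?_ (mul_le_mul_of_nonneg_left (hC n).2 hB0)
  rw [← integral_const_mul]
  refine norm_integral_le_of_norm_le ((hC n).1.const_mul B) ?_
  rw [ae_restrict_iff' (isOpen_PD 1).measurableSet]
  refine Eventually.of_forall fun p hp => ?_
  rw [norm_mul, Real.norm_eq_abs, Real.norm_eq_abs]
  exact mul_le_mul (hB p hp) (H.Fn_le hsg hp) (abs_nonneg _) hB0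

theorem slices (L : (ℂ × ℂ → ℝ) → ℝ) {l : Filter ℕ} [NeBot l] (hl : l ≤ atTop)
    (hlim : ∀ f, TF (PD 1) f → Tendsto (fun n => ∫ p in PD 1, f p * H.Fn sg n p) l (𝓝 (L f)))
    (hpos : ∀ f, TF (PD 1) f → (∀ p, 0 ≤ f p) → 0 ≤ L f) :
    ∃ ν : ℂ → Measure ℂ, (∀ᵐ z ∂volume.restrict (ball (0 : ℂ) 1), IntM (ν z)) ∧
      ∀ f, TF (PD 1) f → IntegrableOn (fun z => ∫ y, f (z, y) ∂(ν z)) (ball 0 1) ∧
        L f = ∫ z in ball (0 : ℂ) 1, ∫ y, f (z, y) ∂(ν z) := by
  classical
  obtain ⟨C, hC0, hC⟩ := H.energy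
  obtain ⟨τ, hτf, hτ0, hτ⟩ := riesz_open (isOpen_PD 1) L
    (fun f g hf hg => by
      have h0 : TF (PD 1) (f + g) := ⟨hf.cont.add hg.cont, hf.supp.add hg.supp,
        (tsupport_add f g).trans (union_subset hf.sub hg.sub)⟩
      refine tendsto_nhds_unique (hlim _ h0) (((hlim f hf).add (hlim g hg)).congr fun n => ?_)
      rw [← integral_add (H.int_Fn n hf.cont) (H.int_Fn n hg.cont)]
      simp only [Pi.add_apply, add_mul])
    (fun c f hf => by
      have h0 : TF (PD 1) (c • f) := ⟨hf.cont.const_smul c, hf.supp.smul_left (f := fun _ => c),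
        (tsupport_smul_subset_right (fun _ => c) f).trans hf.sub⟩
      refine tendsto_nhds_unique (hlim _ h0) (((hlim f hf).const_mul c).congr fun n => ?_)
      rw [← integral_const_mul]
      simp only [Pi.smul_apply, smul_eq_mul, mul_assoc])
    hpos (C := C * 1) (fun f hf h1 => le_of_tendsto' (hlim f hf) fun n =>
      (le_abs_self _).trans (H.int_le hsg hC n zero_le_one fun p _ => h1 p))
  have hK : CompactSpace CPD := isCompact_iff_compactSpace.1 isCompact_CPD
  obtain ⟨ns, hns, hT⟩ := subseq (E := C(CPD, ℝ)) {f | TF (PD 1) f}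
    (fun f => if h : Continuous f then ⟨fun p => f p, h.comp continuous_subtype_val⟩ else 0)
    (fun n f => ∫ p in PD 1, f p * H.Fn sg n p) L hC0 (fun n f hf g hg => by
      rw [← integral_sub (H.int_Fn n hf.cont) (H.int_Fn n hg.cont)]
      simp only [← sub_mul]
      refine H.int_le hsg hC n dist_nonneg fun p hp => ?_
      rw [dif_pos hf.cont, dif_pos hg.cont]
      exact ContinuousMap.dist_apply_le_dist (α := CPD) (β := ℝ)
        (f := ⟨fun p => f p, hf.cont.comp continuous_subtype_val⟩)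
        (g := ⟨fun p => g p, hg.cont.comp continuous_subtype_val⟩) ⟨p, PD1_sub hp⟩) hl hlim
  have hdat : H514.SliceData (ball 0 1) (ball 0 1) τ (fun j => H.Fn sg (ns j))
      (fun j => H.ee (ns j))
      (fun j v p => sg / (2 * Real.pi) * H.JB (ns j) p (v, 0) (0, Complex.I))
      (fun j v p => -(sg / (2 * Real.pi) * H.JB (ns j) p (v, 0) (0, 1))) (ENNReal.ofReal C) :=
    { hU := isOpen_ball
      hV := isOpen_ball
      hτ := hτ0
      hC := ENNReal.ofReal_ne_top
      cF := fun j => (contDiffOn_const.mul (H.JB_sm (ns j) _ _)).mono H.sub1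
      cA := fun j v => (contDiffOn_const.mul (H.JB_sm (ns j) _ _)).mono H.sub1
      cB := fun j v => ((contDiffOn_const.mul (H.JB_sm (ns j) _ _)).neg).mono H.sub1
      ce := fun j => (H.ee_cont (ns j)).mono H.sub1
      eC := fun j => by
        have h1 := ofReal_integral_eq_lintegral_ofReal (hC (ns j)).1
          (Eventually.of_forall (H.ee_nonneg _))
        exact h1.symm.le.trans (ENNReal.ofReal_le_ofReal (hC (ns j)).2)
      Fe := fun j p hp => H.Fn_le hsg hp
      Ae := fun j v p hp => (abs_c hsg _).trans (H.JB_le' (H.sub1 hp) v 3)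
      Be := fun j v p hp => (abs_neg _).le.trans ((abs_c hsg _).trans (H.JB_le' (H.sub1 hp) v 2))
      closed := fun j v p hp => by
        have hn := H.opn.mem_nhds (H.sub1 hp)
        have hc1 : ∀ u w x : ℂ × ℂ,
            fderiv ℝ (fun p => sg / (2 * Real.pi) * H.JB (ns j) p u w) p x =
            sg / (2 * Real.pi) * fderiv ℝ (fun p => H.JB (ns j) p u w) p x := by
          intro u w x
          rw [fderiv_const_mul (((H.JB_sm (ns j) u w).contDiffAt hn).differentiableAt (by simp))]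
          rfl
        have hc2 : ∀ u w x : ℂ × ℂ,
            fderiv ℝ (fun p => -(sg / (2 * Real.pi) * H.JB (ns j) p u w)) p x =
            -(sg / (2 * Real.pi) * fderiv ℝ (fun p => H.JB (ns j) p u w) p x) := by
          intro u w x
          rw [← hc1, fderiv_fun_neg]
          rfl
        show fderiv ℝ (fun p => sg / (2 * Real.pi) * H.JB (ns j) p (0, 1) (0, Complex.I)) p
          (v, 0) = _
        rw [hc1, hc1, hc2, H.JB_closed (n := ns j) (H.sub1 hp) (v, 0) (0, 1) (0, Complex.I)]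
        ring
      lim := fun f hf hs hsp => by
        rw [hτ f ⟨hf, hs, hsp⟩]
        exact hT f ⟨hf, hs, hsp⟩
      vor := fun M ε hM hε => by
        have hr : Tendsto (fun j => H.r (ns j)) atTop atTop := H.r_lim.comp hns.tendsto_atTop
        have hsq : Tendsto (fun j => √(H.r (ns j))) atTop atTop :=
          Real.tendsto_sqrt_atTop.comp hr
        have t1 : Tendsto (fun j => M / (H.r (ns j) * (2 * ε))) atTop (𝓝 0) :=
          tendsto_const_nhds.div_atTop (hr.atTop_mul_const (by positivity))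
        have t2 : Tendsto (fun j => 2 * M / √(H.r (ns j))) atTop (𝓝 0) :=
          tendsto_const_nhds.div_atTop hsq
        have t3 : Tendsto (fun j => 4 * M / √(H.r (ns j))) atTop (𝓝 0) :=
          tendsto_const_nhds.div_atTop hsq
        have t4 := t1.add t2
        rw [add_zero] at t4
        filter_upwards [t4.eventually (gt_mem_nhds (by norm_num : (0 : ℝ) < 1 / 2)),
          t3.eventually (gt_mem_nhds hε)] with j h1 h2 z hz c s hs hcs hbd
        have hrp := H.r_pos (ns j)
        have h3 : M / (H.r (ns j) * (2 * s)) ≤ M / (H.r (ns j) * (2 * ε)) :=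
          div_le_div_of_nonneg_left hM.le (by positivity)
            (mul_le_mul_of_nonneg_left (by linarith) hrp.le)
        obtain ⟨k, hk⟩ := H.vortex hz (lt_of_lt_of_le hε hs) hcs hbd (by linarith)
        have hint : ∫ y in H514.Sq c s, H.Fn sg (ns j) (z, y) = sg / (2 * Real.pi) *
            ∫ y in H514.Sq c s, H.JB (ns j) (z, y) (0, 1) (0, Complex.I) :=
          integral_const_mul _ _
        have h5 : ∀ k' : ℤ, (k' : ℝ) = sg * k →
            |(∫ y in H514.Sq c s, H.Fn sg (ns j) (z, y)) - k'| ≤ ε := by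
          intro k' hk'
          rw [hk', hint]
          refine le_trans (le_of_eq ?_) ((abs_c hsg _).trans (hk.trans h2.le))
          congr 1
          field_simp
        rcases hsg with h | h
        · exact ⟨k, h5 k (by rw [h, one_mul])⟩
        · exact ⟨-k, h5 (-k) (by rw [h]; push_cast; ring)⟩ }
  obtain ⟨ν, _, hν1, _, hν3⟩ := H514.slice_theorem _ _ τ _ _ _ _ _ hdat
  refine ⟨ν, ?_, fun f hf => ?_⟩
  · filter_upwards [hν1] with z hz
    obtain ⟨P, _, hP⟩ := hz
    exact intM_of hP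
  · have hint : Integrable f τ := hf.cont.integrable_of_hasCompactSupport hf.supp
    exact ⟨(hν3 f hint).1, (hτ f hf).symm.trans (hν3 f hint).2⟩

end Vale.Agent.P247H.Gn.HD
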